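import Vale.Agent.Lib.P368.DL.LayerPrune
import Vale.Agent.Lib.P368.Corr

/-! # Gates outside the backward light cone of the output qubit can be dropped -/

namespace Vale.Agent.Lib.P368

open Matrix

set_option linter.unusedSectionVars false

variable {ι : Type} [Fintype ι] [DecidableEq ι]

private theorem foldl_init (C : List (List (Gate ι))) (V : Op ι) :
    C.foldl (fun U L => layerOp L * U) V = C.foldl (fun U L => layerOp L * U) 1 * V := by
  induction C generalizing V with
  | nil => simp
  | cons L C ih =>
    rw [List.foldl_cons, List.foldl_cons, ih (layerOp L * V), ih (layerOp L * 1), mul_one,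
      Matrix.mul_assoc]

/-- generalize the initial value of the `foldl`: `C.foldl f V = C.foldl f 1 * V` by induction on `C` -/
theorem circuitOp_append (C₁ C₂ : List (List (Gate ι))) :
    circuitOp (C₁ ++ C₂) = circuitOp C₂ * circuitOp C₁ := by
  unfold circuitOp
  rw [List.foldl_append, foldl_init]

theorem circuitOp_cons (L : List (Gate ι)) (C : List (List (Gate ι))) :
    circuitOp (L :: C) = circuitOp C * layerOp L := by
  have h := circuitOp_append [L] C
  simpa [circuitOp] using h

/-- Induction on `C`: `circuitOp_cons`, `Matrix.conjTranspose_mul`, the induction hypothesis for the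
later layers, then `layer_prune` with `cone C T`. -/
theorem circuit_prune (C : List (List (Gate ι))) (hC : circuitValid C) (T : Finset ι) (X : Op ι)
    (hX : LivesOn T X) :
    (circuitOp C)ᴴ * X * circuitOp C
        = (circuitOp (pruneCircuit C T))ᴴ * X * circuitOp (pruneCircuit C T) ∧
      LivesOn (cone C T) ((circuitOp C)ᴴ * X * circuitOp C) := by
  induction C with
  | nil =>
    refine ⟨rfl, ?_⟩
    have h1 : circuitOp ([] : List (List (Gate ι))) = 1 := rfl
    have h2 : cone ([] : List (List (Gate ι))) T = T := rfl
    rw [h1, h2]
    simpa using hX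
  | cons L C ih =>
    have hL : layerValid L := hC L (by simp)
    have hC' : circuitValid C := fun L' hL' => hC L' (by simp [hL'])
    obtain ⟨ih1, ih2⟩ := ih hC'
    obtain ⟨h1, h2⟩ := layer_prune L hL (cone C T) _ ih2
    have hcone : cone (L :: C) T = growCone L (cone C T) := rfl
    have hprune : pruneCircuit (L :: C) T = keepLayer L (cone C T) :: pruneCircuit C T := rfl
    have hexp : ∀ (L' : List (Gate ι)) (C' : List (List (Gate ι))),
        (circuitOp (L' :: C'))ᴴ * X * circuitOp (L' :: C')
          = (layerOp L')ᴴ * ((circuitOp C')ᴴ * X * circuitOp C') * layerOp L' := by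
      intro L' C'
      rw [circuitOp_cons, Matrix.conjTranspose_mul]
      simp only [Matrix.mul_assoc]
    rw [hcone, hprune, hexp, hexp]
    refine ⟨?_, h2⟩
    rw [h1, ih1]

end Vale.Agent.Lib.P368
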