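import Vale.Agent.Lib.P368.Defs

/-! # The backward light cone of a set of qubits -/

namespace Vale.Agent.Lib.P368

variable {ι : Type} [Fintype ι] [DecidableEq ι]

/-- the gates of the layer `L` that meet the set `T` of qubits -/
def keepLayer (L : List (Gate ι)) (T : Finset ι) : List (Gate ι) :=
  L.filter (fun g => decide (g.supp ∩ T).Nonempty)

/-- `T` together with the supports of the gates of `L` that meet `T` -/
def growCone (L : List (Gate ι)) (T : Finset ι) : Finset ι :=
  (keepLayer L T).foldr (fun g V => g.supp ∪ V) T

/-- the backward light cone of `T` through the layers of `C` (the head of `C` is applied first, so the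
last layer is the first to enlarge `T`) -/
def cone (C : List (List (Gate ι))) (T : Finset ι) : Finset ι := C.foldr growCone T

/-- the circuit without the gates outside the backward light cone of `T` -/
def pruneCircuit : List (List (Gate ι)) → Finset ι → List (List (Gate ι))
  | [], _ => []
  | L :: C, T => keepLayer L (cone C T) :: pruneCircuit C T

end Vale.Agent.Lib.P368
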