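import Vale.Agent.Lib.P368.DL.KeepLen

/-! # The size of the cone when the fan-in is bounded -/

namespace Vale.Agent.Lib.P368

set_option linter.unusedSectionVars false

variable {ι : Type} [Fintype ι] [DecidableEq ι]

theorem fold_card_aux (K : List (Gate ι)) (T : Finset ι) (s : ℕ) (hs : 1 ≤ s)
    (h : ∀ g ∈ K, g.supp.card ≤ s ∧ (g.supp ∩ T).Nonempty) :
    T ⊆ K.foldr (fun g V => g.supp ∪ V) T ∧
      (K.foldr (fun g V => g.supp ∪ V) T).card ≤ T.card + (s - 1) * K.length := by
  induction K with
  | nil => simp
  | cons g K ih =>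
    obtain ⟨h1, h2⟩ := ih fun g' hg' => h g' (List.mem_cons_of_mem g hg')
    obtain ⟨h3, h4⟩ := h g List.mem_cons_self
    rw [List.foldr_cons, List.length_cons]
    refine ⟨h1.trans Finset.subset_union_right, ?_⟩
    have h5 := Finset.card_union_add_card_inter g.supp (K.foldr (fun g V => g.supp ∪ V) T)
    have h6 : 1 ≤ (g.supp ∩ K.foldr (fun g V => g.supp ∪ V) T).card :=
      Finset.card_pos.2 (h4.mono (Finset.inter_subset_inter_left h1))
    have h7 : (s - 1) * (K.length + 1) = (s - 1) * K.length + (s - 1) := by ring
    omega

theorem fold_eq_aux (K : List (Gate ι)) (T : Finset ι) (h : ∀ g ∈ K, g.supp ⊆ T) :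
    K.foldr (fun g V => g.supp ∪ V) T = T := by
  induction K with
  | nil => rfl
  | cons g K ih =>
    rw [List.foldr_cons, ih fun g' hg' => h g' (List.mem_cons_of_mem g hg')]
    exact Finset.union_eq_right.2 (h g List.mem_cons_self)

/-- induction on the filtered list: `V ⊇ T` meets `g.supp`, so `|g.supp ∪ V| + 1 ≤ |g.supp| + |V|`
(`Finset.card_union_add_card_inter`) -/
theorem growCone_card_aux (L : List (Gate ι)) (T : Finset ι) (s : ℕ) (hs : 1 ≤ s)
    (h : ∀ g ∈ L, g.supp.card ≤ s) :
    (growCone L T).card ≤ T.card + (s - 1) * (keepLayer L T).length := by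
  refine (fold_card_aux (keepLayer L T) T s hs fun g hg => ?_).2
  unfold keepLayer at hg
  rw [List.mem_filter] at hg
  exact ⟨h g hg.1, of_decide_eq_true hg.2⟩

theorem growCone_card (L : List (Gate ι)) (hL : layerValid L) (T : Finset ι) (s : ℕ) (hs : 1 ≤ s)
    (h : ∀ g ∈ L, g.supp.card ≤ s) : (growCone L T).card ≤ s * T.card := by
  have h1 := growCone_card_aux L T s hs h
  have h2 := keepLayer_length L hL T
  have h3 : (s - 1) * (keepLayer L T).length ≤ (s - 1) * T.card := Nat.mul_le_mul_left _ h2
  have h4 : T.card + (s - 1) * T.card = s * T.card := by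
    obtain ⟨k, rfl⟩ : ∃ k, s = k + 1 := ⟨s - 1, by omega⟩
    simp only [Nat.add_sub_cancel]
    ring
  omega

/-- all gates are one-qubit gates (`layerEntangling L = false`, `List.any_eq_false`), the support of
such a gate is a singleton, so a gate that meets `T` lies in `T` -/
theorem growCone_of_not_entangling (L : List (Gate ι)) (hL : layerEntangling L = false)
    (T : Finset ι) : growCone L T = T := by
  refine fold_eq_aux (keepLayer L T) T fun g hg => ?_
  unfold keepLayer at hg
  rw [List.mem_filter] at hg
  have hne : (g.supp ∩ T).Nonempty := of_decide_eq_true hg.2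
  unfold layerEntangling at hL
  rw [List.any_eq_false] at hL
  have hg' := hL g hg.1
  cases g with
  | single i u =>
    obtain ⟨x, hx⟩ := hne
    rw [Finset.mem_inter] at hx
    have hxi : x = i := by simpa [Gate.supp] using hx.1
    intro y hy
    have hyi : y = i := by simpa [Gate.supp] using hy
    rw [hyi, ← hxi]
    exact hx.2
  | toffoli S b => exact absurd rfl hg'

/-- induction on `C` (`List.countP_cons`), `growCone_card`, `growCone_of_not_entangling` -/
theorem cone_card (C : List (List (Gate ι))) (hC : circuitValid C) (T : Finset ι) (s : ℕ)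
    (hs : 1 ≤ s) (h : ∀ L ∈ C, ∀ g ∈ L, g.supp.card ≤ s) :
    (cone C T).card ≤ s ^ entanglingDepth C * T.card := by
  induction C with
  | nil => simp [cone, entanglingDepth]
  | cons L C ih =>
    have ih' := ih (fun L' hL' => hC L' (List.mem_cons_of_mem L hL'))
      (fun L' hL' => h L' (List.mem_cons_of_mem L hL'))
    have hcone : cone (L :: C) T = growCone L (cone C T) := rfl
    have hdep : entanglingDepth (L :: C)
        = entanglingDepth C + if layerEntangling L = true then 1 else 0 := by
      unfold entanglingDepth
      rw [List.countP_cons]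
    rw [hcone, hdep]
    by_cases hL : layerEntangling L = true
    · rw [if_pos hL, pow_succ]
      have h1 := growCone_card L (hC L List.mem_cons_self) (cone C T) s hs
        (h L List.mem_cons_self)
      calc (growCone L (cone C T)).card ≤ s * (cone C T).card := h1
        _ ≤ s * (s ^ entanglingDepth C * T.card) := Nat.mul_le_mul_left _ ih'
        _ = s ^ entanglingDepth C * s * T.card := by ring
    · rw [if_neg hL, add_zero, growCone_of_not_entangling L (by simpa using hL)]
      exact ih'

end Vale.Agent.Lib.P368
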