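import Vale.Agent.Lib.P368.DL.Cone

/-! # Elementary facts on cones and pruned circuits -/

namespace Vale.Agent.Lib.P368

set_option linter.unusedSectionVars false

variable {ι : Type} [Fintype ι] [DecidableEq ι]

private theorem subset_foldr_union (K : List (Gate ι)) (T : Finset ι) :
    T ⊆ K.foldr (fun g V => g.supp ∪ V) T := by
  induction K with
  | nil => exact Finset.Subset.refl T
  | cons g K ih =>
    rw [List.foldr_cons]
    exact ih.trans Finset.subset_union_right

private theorem supp_subset_foldr_union (K : List (Gate ι)) (T : Finset ι) (g : Gate ι)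
    (hg : g ∈ K) : g.supp ⊆ K.foldr (fun g V => g.supp ∪ V) T := by
  induction K with
  | nil => exact absurd hg (List.not_mem_nil)
  | cons h K ih =>
    rw [List.foldr_cons]
    rcases List.mem_cons.1 hg with rfl | hg'
    · exact Finset.subset_union_left
    · exact (ih hg').trans Finset.subset_union_right

/-- induction on the filtered list -/
theorem subset_growCone (L : List (Gate ι)) (T : Finset ι) : T ⊆ growCone L T :=
  subset_foldr_union (keepLayer L T) T

/-- induction on the filtered list -/
theorem supp_subset_growCone (L : List (Gate ι)) (T : Finset ι) (g : Gate ι)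
    (hg : g ∈ keepLayer L T) : g.supp ⊆ growCone L T :=
  supp_subset_foldr_union (keepLayer L T) T g hg

/-- induction on `C` -/
theorem subset_cone (C : List (List (Gate ι))) (T : Finset ι) : T ⊆ cone C T := by
  induction C with
  | nil => exact Finset.Subset.refl T
  | cons L C ih =>
    have e : cone (L :: C) T = growCone L (cone C T) := rfl
    rw [e]
    exact ih.trans (subset_growCone L (cone C T))

/-- induction on `C`; head layer: `supp_subset_growCone`; other layers: `subset_growCone` -/
theorem prune_supp (C : List (List (Gate ι))) (T : Finset ι) :
    ∀ L ∈ pruneCircuit C T, ∀ g ∈ L, g.supp ⊆ cone C T := by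
  induction C with
  | nil =>
    intro L hL
    exact absurd hL (List.not_mem_nil)
  | cons L0 C ih =>
    intro L hL g hg
    have e : cone (L0 :: C) T = growCone L0 (cone C T) := rfl
    have e2 : pruneCircuit (L0 :: C) T = keepLayer L0 (cone C T) :: pruneCircuit C T := rfl
    rw [e]
    rw [e2] at hL
    rcases List.mem_cons.1 hL with rfl | hL'
    · exact supp_subset_growCone L0 (cone C T) g hg
    · exact (ih L hL' g hg).trans (subset_growCone L0 (cone C T))

/-- a filtered list is a sublist (`List.Pairwise.sublist`, `List.filter_sublist`) -/
theorem keepLayer_valid (L : List (Gate ι)) (hL : layerValid L) (T : Finset ι) :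
    layerValid (keepLayer L T) := by
  refine ⟨fun g hg => hL.1 g (List.mem_of_mem_filter hg), ?_⟩
  exact hL.2.sublist List.filter_sublist

theorem prune_valid (C : List (List (Gate ι))) (hC : circuitValid C) (T : Finset ι) :
    circuitValid (pruneCircuit C T) := by
  induction C with
  | nil =>
    intro L hL
    exact absurd hL (List.not_mem_nil)
  | cons L0 C ih =>
    intro L hL
    have e2 : pruneCircuit (L0 :: C) T = keepLayer L0 (cone C T) :: pruneCircuit C T := rfl
    rw [e2] at hL
    rcases List.mem_cons.1 hL with rfl | hL'
    · exact keepLayer_valid L0 (hC L0 (List.mem_cons_self)) (cone C T)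
    · exact ih (fun L' hL'' => hC L' (List.mem_cons_of_mem _ hL'')) L hL'

private theorem keepLayer_entangling (L : List (Gate ι)) (T : Finset ι)
    (h : layerEntangling (keepLayer L T) = true) : layerEntangling L = true := by
  unfold layerEntangling at h ⊢
  rw [List.any_eq_true] at h ⊢
  obtain ⟨g, hg, hm⟩ := h
  exact ⟨g, List.mem_of_mem_filter hg, hm⟩

/-- `layerEntangling (keepLayer L T) = true → layerEntangling L = true`, then induction on `C`
(`List.countP_cons`) -/
theorem prune_depth (C : List (List (Gate ι))) (T : Finset ι) :
    entanglingDepth (pruneCircuit C T) ≤ entanglingDepth C := by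
  induction C with
  | nil => exact le_refl _
  | cons L0 C ih =>
    have e2 : pruneCircuit (L0 :: C) T = keepLayer L0 (cone C T) :: pruneCircuit C T := rfl
    rw [e2]
    unfold entanglingDepth at ih ⊢
    rw [List.countP_cons, List.countP_cons]
    have h := keepLayer_entangling L0 (cone C T)
    by_cases h1 : layerEntangling (keepLayer L0 (cone C T)) = true
    · rw [if_pos h1, if_pos (h h1)]
      omega
    · rw [if_neg h1]
      split_ifs <;> omega

end Vale.Agent.Lib.P368
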