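import Vale.Agent.Lib.P368.DL.ConeSet

/-! # The cone lies in every set that contains the multiqubit gates -/

namespace Vale.Agent.Lib.P368

set_option linter.unusedSectionVars false

variable {ι : Type} [Fintype ι] [DecidableEq ι]

private theorem foldr_union_subset (K : List (Gate ι)) (T U : Finset ι) (hT : T ⊆ U)
    (hK : ∀ g ∈ K, g.supp ⊆ U) : K.foldr (fun g V => g.supp ∪ V) T ⊆ U := by
  induction K with
  | nil => exact hT
  | cons g K ih =>
    rw [List.foldr_cons]
    exact Finset.union_subset (hK g (List.mem_cons_self ..))
      (ih fun g' hg' => hK g' (List.mem_cons_of_mem _ hg'))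

/-- induction on the filtered list: a multiqubit gate lies in `U` by hypothesis; the support of a
one-qubit gate is a singleton, so if it meets `T` it lies in `T ⊆ U` -/
theorem growCone_subset (L : List (Gate ι)) (T U : Finset ι) (hT : T ⊆ U)
    (hU : ∀ g ∈ L, g.isMulti = true → g.supp ⊆ U) : growCone L T ⊆ U := by
  refine foldr_union_subset (keepLayer L T) T U hT fun g hg => ?_
  have hgL : g ∈ L := List.mem_of_mem_filter hg
  have hmeet : (g.supp ∩ T).Nonempty := by
    have := (List.mem_filter.1 hg).2
    exact of_decide_eq_true this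
  cases g with
  | single i u =>
    obtain ⟨x, hx⟩ := hmeet
    rw [Finset.mem_inter] at hx
    have hxi : x = i := Finset.mem_singleton.1 hx.1
    intro y hy
    have hyi : y = i := Finset.mem_singleton.1 hy
    rw [hyi, ← hxi]
    exact hT hx.2
  | toffoli S b => exact hU _ hgL rfl

/-- induction on `C` -/
theorem cone_subset (C : List (List (Gate ι))) (T U : Finset ι) (hT : T ⊆ U)
    (hU : ∀ L ∈ C, ∀ g ∈ L, g.isMulti = true → g.supp ⊆ U) : cone C T ⊆ U := by
  induction C with
  | nil => exact hT
  | cons L C ih =>
    have e : cone (L :: C) T = growCone L (cone C T) := rfl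
    rw [e]
    exact growCone_subset L (cone C T) U
      (ih fun L' hL' => hU L' (List.mem_cons_of_mem _ hL')) (hU L (List.mem_cons_self ..))

end Vale.Agent.Lib.P368
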