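import Vale.Agent.Lib.P368.DL.OutPrune
import Vale.Agent.Lib.P368.DL.ConeCard
import Vale.Agent.Lib.P368.DL.ConeSub
import Vale.Agent.Lib.P368.DH.FinalNA

/-! # Every entangling depth: only the backward light cone above the second entangling layer counts -/

namespace Vale.Agent.Lib.P368

open Matrix Finset

theorem valid_append_prune {ι : Type} [Fintype ι] [DecidableEq ι] (C₁ C₂ : List (List (Gate ι)))
    (hC : circuitValid (C₁ ++ C₂)) (T : Finset ι) :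
    circuitValid C₂ ∧ circuitValid (C₁ ++ pruneCircuit C₂ T) := by
  have h2 : circuitValid C₂ := fun L hL => hC L (List.mem_append_right _ hL)
  refine ⟨h2, fun L hL => ?_⟩
  rcases List.mem_append.1 hL with h | h
  · exact hC L (List.mem_append_left _ h)
  · exact prune_valid C₂ h2 T L h

/-- `depth_split` for the pruned circuit -/
theorem depth_cone {n a : ℕ} (C₁ C₂ : List (List (Gate (Fin n ⊕ Fin a))))
    (hC : circuitValid (C₁ ++ C₂)) (m x : ℕ) (h₁ : entanglingDepth C₁ ≤ 2)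
    (h₂ : entanglingDepth C₂ ≤ m + 2) (o : Fin n ⊕ Fin a) (N : ℕ) (hN : (cone C₂ {o}).card ≤ N)
    (ε : ℝ) (hε0 : 0 < ε) (hε1 : ε ≤ 1) (hx : N ≤ x ^ (2 ^ (m + 1)))
    (h : 30 * Real.logb 2 (160 * ((m : ℝ) + 2) * ((N : ℝ) + 1) / ε)
      * (36 * ((m : ℝ) + 2) * Real.logb 2 (160 * ((m : ℝ) + 2) * ((N : ℝ) + 1) / ε)) ^ (m + 2)
      * (x : ℝ) ^ (2 ^ (m + 1) - 1) ≤ n) :
    |parityCorrelation (C₁ ++ C₂) o| ≤ ε := by
  obtain ⟨hv2, hv⟩ := valid_append_prune C₁ C₂ hC {o}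
  rw [corr_prune C₁ C₂ hv2 o]
  exact depth_split C₁ (pruneCircuit C₂ {o}) hv m x h₁ ((prune_depth C₂ {o}).trans h₂)
    (cone C₂ {o}) N hN (fun L hL g hg _ => prune_supp C₂ {o} L hL g hg) o
    (subset_cone C₂ {o} (Finset.mem_singleton_self o)) ε hε0 hε1 hx h

/-- `depth_split_asymp` for the pruned circuit -/
theorem depth_cone_asymp (m : ℕ) (ε : ℝ) (hε0 : 0 < ε) :
    ∃ c : ℝ, 0 < c ∧ ∀ (n a : ℕ) (C₁ C₂ : List (List (Gate (Fin n ⊕ Fin a))))
      (o : Fin n ⊕ Fin a),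
      circuitValid (C₁ ++ C₂) → entanglingDepth C₁ ≤ 2 → entanglingDepth C₂ ≤ m + 2 →
      ((cone C₂ {o}).card : ℝ) ≤ c * ((n : ℝ) / (Real.logb 2 n) ^ (m + 3))
        ^ ((2 : ℝ) ^ (m + 1) / ((2 : ℝ) ^ (m + 1) - 1)) →
      |parityCorrelation (C₁ ++ C₂) o| ≤ ε := by
  obtain ⟨c, hc0, hc⟩ := depth_split_asymp m ε hε0
  refine ⟨c, hc0, ?_⟩
  intro n a C₁ C₂ o hC h₁ h₂ h
  obtain ⟨hv2, hv⟩ := valid_append_prune C₁ C₂ hC {o}
  rw [corr_prune C₁ C₂ hv2 o]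
  exact hc n a C₁ (pruneCircuit C₂ {o}) (cone C₂ {o}) o hv h₁ ((prune_depth C₂ {o}).trans h₂)
    (fun L hL g hg _ => prune_supp C₂ {o} L hL g hg)
    (subset_cone C₂ {o} (Finset.mem_singleton_self o)) h

/-- the cone when the gates of the upper part act on at most `s` qubits -/
theorem cone_card_fanin {ι : Type} [Fintype ι] [DecidableEq ι] (C : List (List (Gate ι)))
    (hC : circuitValid C) (o : ι) (s k : ℕ) (hs : 1 ≤ s) (hk : entanglingDepth C ≤ k)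
    (h : ∀ L ∈ C, ∀ g ∈ L, g.supp.card ≤ s) : (cone C {o}).card ≤ s ^ k := by
  have h1 := cone_card C hC {o} s hs h
  rw [Finset.card_singleton, Nat.mul_one] at h1
  exact h1.trans (Nat.pow_le_pow_right hs hk)

end Vale.Agent.Lib.P368
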