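import Vale.Agent.Lib.P368.DL.ConeSet

/-! # The number of gates of a layer that meet a set -/

namespace Vale.Agent.Lib.P368

set_option linter.unusedSectionVars false

variable {ι : Type} [Fintype ι] [DecidableEq ι]

/-- removing a set disjoint from all supports does not change the kept gates -/
theorem keepLayer_sdiff (L : List (Gate ι)) (T U : Finset ι)
    (hU : ∀ h ∈ L, Disjoint U h.supp) : keepLayer L (T \ U) = keepLayer L T := by
  unfold keepLayer
  apply List.filter_congr
  intro h hh
  have hd := hU h hh
  have : h.supp ∩ (T \ U) = h.supp ∩ T := by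
    ext x
    simp only [Finset.mem_inter, Finset.mem_sdiff]
    constructor
    · rintro ⟨h1, h2, -⟩
      exact ⟨h1, h2⟩
    · rintro ⟨h1, h2⟩
      exact ⟨h1, h2, fun hx => (Finset.disjoint_left.mp hd) hx h1⟩
  rw [this]

theorem keepLayer_length_aux (L : List (Gate ι)) :
    L.Pairwise (fun g h => Disjoint g.supp h.supp) → ∀ T : Finset ι,
      (keepLayer L T).length ≤ T.card := by
  induction L with
  | nil => intro _ T; simp [keepLayer]
  | cons g L ih =>
    intro hp T
    rw [List.pairwise_cons] at hp
    obtain ⟨hg, hp⟩ := hp
    by_cases hne : (g.supp ∩ T).Nonempty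
    · have h1 : keepLayer (g :: L) T = g :: keepLayer L T := by
        unfold keepLayer
        rw [List.filter_cons_of_pos (by simpa using hne)]
      rw [h1, List.length_cons, ← keepLayer_sdiff L T g.supp hg]
      have h2 := ih hp (T \ g.supp)
      have h3 : (T \ g.supp).card < T.card := by
        apply Finset.card_lt_card
        rw [Finset.ssubset_iff_of_subset Finset.sdiff_subset]
        obtain ⟨x, hx⟩ := hne
        rw [Finset.mem_inter] at hx
        exact ⟨x, hx.2, fun h => (Finset.mem_sdiff.mp h).2 hx.1⟩
      omega
    · have h1 : keepLayer (g :: L) T = keepLayer L T := by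
        unfold keepLayer
        rw [List.filter_cons_of_neg (by simpa using hne)]
      rw [h1]
      exact ih hp T

/-- the gates that meet `T` are pairwise disjoint and each contains a point of `T`
(induction on `L`, removing `g.supp` from `T`; or `∑ |g.supp ∩ T| ≤ |T|`) -/
theorem keepLayer_length (L : List (Gate ι)) (hL : layerValid L) (T : Finset ι) :
    (keepLayer L T).length ≤ T.card :=
  keepLayer_length_aux L hL.2 T

end Vale.Agent.Lib.P368
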