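import Vale.Agent.Lib.P368.DL.LivesGate
import Vale.Agent.Lib.P368.DL.ConeSet

/-! # Gates of a layer outside the cone can be dropped -/

namespace Vale.Agent.Lib.P368

open Matrix

set_option linter.unusedSectionVars false

variable {ι : Type} [Fintype ι] [DecidableEq ι]

private theorem foldr_union (K : List (Gate ι)) (A T : Finset ι) :
    K.foldr (fun g V => g.supp ∪ V) (A ∪ T) = A ∪ K.foldr (fun g V => g.supp ∪ V) T := by
  induction K with
  | nil => rfl
  | cons h K ih =>
    simp only [List.foldr_cons]
    rw [ih, Finset.union_left_comm]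

private theorem layerOp_cons (g : Gate ι) (L : List (Gate ι)) :
    layerOp (g :: L) = g.op * layerOp L := by
  simp [layerOp]

private theorem conj_cons (g : Gate ι) (L : List (Gate ι)) (X : Op ι) :
    (layerOp (g :: L))ᴴ * X * layerOp (g :: L)
      = (layerOp L)ᴴ * (g.opᴴ * X * g.op) * layerOp L := by
  rw [layerOp_cons, Matrix.conjTranspose_mul]
  simp only [Matrix.mul_assoc]

/-- Induction on `L`, generalizing `T` and `X`.  `layerOp (g :: L) = g.op * layerOp L`, so
`(layerOp (g :: L))ᴴ * X * layerOp (g :: L) = (layerOp L)ᴴ * (g.opᴴ * X * g.op) * layerOp L`.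
If `g` misses `T`: `LivesOn.gate_drop`, and `keepLayer`, `growCone` do not see `g`.
If `g` meets `T`: `X₁ = g.opᴴ * X * g.op` lives on `T₁ = g.supp ∪ T` (`LivesOn.gate_conj`); the other
gates `h ∈ L` are disjoint from `g.supp`, so `(h.supp ∩ T₁).Nonempty ↔ (h.supp ∩ T).Nonempty` and
`keepLayer L T₁ = keepLayer L T` (`List.filter_congr`); `growCone L T₁ ⊆ growCone (g :: L) T`
(both are unions over the same list; in fact equal), `LivesOn.mono`. -/
theorem layer_prune (L : List (Gate ι)) (hL : layerValid L) (T : Finset ι) (X : Op ι)
    (hX : LivesOn T X) :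
    (layerOp L)ᴴ * X * layerOp L
        = (layerOp (keepLayer L T))ᴴ * X * layerOp (keepLayer L T) ∧
      LivesOn (growCone L T) ((layerOp L)ᴴ * X * layerOp L) := by
  induction L generalizing T X with
  | nil =>
    refine ⟨rfl, ?_⟩
    have h1 : layerOp ([] : List (Gate ι)) = 1 := by simp [layerOp]
    have h2 : growCone ([] : List (Gate ι)) T = T := rfl
    rw [h1, h2]
    simpa using hX
  | cons g L ih =>
    have hg : g.Valid := hL.1 g (List.mem_cons_self)
    have hL' : layerValid L :=
      ⟨fun h hh => hL.1 h (List.mem_cons_of_mem _ hh), (List.pairwise_cons.mp hL.2).2⟩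
    have hdis : ∀ h ∈ L, Disjoint g.supp h.supp := (List.pairwise_cons.mp hL.2).1
    by_cases hm : (g.supp ∩ T).Nonempty
    · -- `g` meets `T`
      have hX1 : LivesOn (g.supp ∪ T) (g.opᴴ * X * g.op) := hX.gate_conj g hg
      have hkeep : keepLayer L (g.supp ∪ T) = keepLayer L T := by
        unfold keepLayer
        apply List.filter_congr
        intro h hh
        have hd : h.supp ∩ g.supp = ∅ :=
          Finset.disjoint_iff_inter_eq_empty.mp (hdis h hh).symm
        have : h.supp ∩ (g.supp ∪ T) = h.supp ∩ T := by
          rw [Finset.inter_union_distrib_left, hd, Finset.empty_union]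
        rw [this]
      have hk : keepLayer (g :: L) T = g :: keepLayer L T := by
        unfold keepLayer
        rw [List.filter_cons_of_pos (by simpa using hm)]
      have hgc : growCone L (g.supp ∪ T) = growCone (g :: L) T := by
        unfold growCone
        rw [hkeep, hk, foldr_union]
        rfl
      obtain ⟨h1, h2⟩ := ih hL' (g.supp ∪ T) (g.opᴴ * X * g.op) hX1
      rw [hkeep] at h1
      rw [hgc] at h2
      rw [conj_cons, hk, conj_cons]
      exact ⟨h1, h2⟩
    · -- `g` misses `T`
      have hd : Disjoint g.supp T :=
        Finset.disjoint_iff_inter_eq_empty.mpr (Finset.not_nonempty_iff_eq_empty.mp hm)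
      have hdrop : g.opᴴ * X * g.op = X := hX.gate_drop g hg hd
      have hk : keepLayer (g :: L) T = keepLayer L T := by
        unfold keepLayer
        rw [List.filter_cons_of_neg (by simpa using hm)]
      have hgc : growCone (g :: L) T = growCone L T := by
        unfold growCone
        rw [hk]
      rw [conj_cons, hdrop, hk, hgc]
      exact ih hL' T X hX

end Vale.Agent.Lib.P368
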