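import Vale.Agent.Lib.P368.GateForm
import Vale.Agent.Lib.P368.Unitary
import Vale.Agent.Lib.P368.Top

/-! # Operators that live on a set of qubits -/

namespace Vale.Agent.Lib.P368

open Matrix

set_option linter.unusedSectionVars false

variable {ι : Type} [Fintype ι] [DecidableEq ι]

/-- `X` commutes with all product operators that are trivial on `T` -/
def LivesOn (T : Finset ι) (X : Op ι) : Prop :=
  ∀ A : ι → M2, (∀ j ∈ T, A j = 1) → prodOp A * X = X * prodOp A

theorem LivesOn.mono {T T' : Finset ι} {X : Op ι} (h : LivesOn T X) (hT : T ⊆ T') :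
    LivesOn T' X := fun A hA => h A (fun j hj => hA j (hT hj))

/-- `prodOp_commute`: at every site one of the two factors is `1` -/
theorem livesOn_prodOp (T : Finset ι) (B : ι → M2) (hB : ∀ j, j ∉ T → B j = 1) :
    LivesOn T (prodOp B) := by
  intro A hA
  refine prodOp_commute (A := A) (B := B) (fun i => ?_)
  by_cases hi : i ∈ T
  · rw [hA i hi]
    exact Commute.one_left _
  · rw [hB i hi]
    exact Commute.one_right _

/-- `single_eq` (`c₀ = 0`, `c₁ = 1`, `A = atSite i u`), `toffoli_eq`, `tof_valid`
(`c₀ = 1`, `c₁ = -2`, `A = tofQ S b`, `reflOp` unfolds to `1 - 2 • prodOp _`) -/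
theorem gate_form (g : Gate ι) (hg : g.Valid) :
    ∃ (c₀ c₁ : ℂ) (A : ι → M2), (∀ j, j ∉ g.supp → A j = 1) ∧
      g.op = c₀ • (1 : Op ι) + c₁ • prodOp A := by
  cases g with
  | single i u =>
    refine ⟨0, 1, atSite i u, ?_, ?_⟩
    · intro j hj
      apply atSite_ne
      intro h
      apply hj
      rw [h]
      exact Finset.mem_singleton_self i
    · rw [single_eq, zero_smul, one_smul, zero_add]
  | toffoli S b =>
    refine ⟨1, -2, tofQ S b, ?_, ?_⟩
    · intro j hj
      exact (tof_valid S b).2 j hj
    · rw [toffoli_eq S b hg.2]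
      unfold reflOp
      rw [one_smul, neg_smul, sub_eq_add_neg]

/-- `circuitOp_unitary` for the circuit `[[g]]` (or directly from `gate_form`'s two cases) -/
theorem gate_unitary (g : Gate ι) (hg : g.Valid) : g.opᴴ * g.op = 1 := by
  have hC : circuitValid [[g]] := by
    intro L hL
    rw [List.mem_singleton] at hL
    rw [hL]
    refine ⟨?_, List.pairwise_singleton _ _⟩
    intro g' hg'
    rw [List.mem_singleton] at hg'
    rw [hg']
    exact hg
  have h := circuitOp_unitary [[g]] hC
  have e : circuitOp [[g]] = g.op := by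
    simp [circuitOp, layerOp]
  rw [e] at h
  exact h

end Vale.Agent.Lib.P368
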