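import Vale.Agent.Lib.P368.DL.Lives

/-! # Gates and operators that live on a set of qubits -/

namespace Vale.Agent.Lib.P368

open Matrix

set_option linter.unusedSectionVars false

variable {ι : Type} [Fintype ι] [DecidableEq ι]

/-- `gate_form`; the product operator of `g` is trivial on `T` -/
theorem LivesOn.gate_comm {T : Finset ι} {X : Op ι} (h : LivesOn T X) (g : Gate ι) (hg : g.Valid)
    (hd : Disjoint g.supp T) : g.op * X = X * g.op := by
  obtain ⟨c₀, c₁, A, hA, hop⟩ := gate_form g hg
  have hc : prodOp A * X = X * prodOp A :=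
    h A (fun j hj => hA j (fun hj' => (Finset.disjoint_left.mp hd) hj' hj))
  rw [hop, Matrix.add_mul, Matrix.mul_add, Matrix.smul_mul, Matrix.smul_mul, Matrix.mul_smul,
    Matrix.mul_smul, Matrix.one_mul, Matrix.mul_one, hc]

/-- `gate_comm`, `gate_unitary` -/
theorem LivesOn.gate_drop {T : Finset ι} {X : Op ι} (h : LivesOn T X) (g : Gate ι) (hg : g.Valid)
    (hd : Disjoint g.supp T) : g.opᴴ * X * g.op = X := by
  rw [Matrix.mul_assoc, ← h.gate_comm g hg hd, ← Matrix.mul_assoc, gate_unitary g hg,
    Matrix.one_mul]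

/-- a product operator that is trivial on `g.supp` commutes with `g.op` -/
theorem prodOp_gate_comm (g : Gate ι) (hg : g.Valid) (B : ι → M2) (hB : ∀ j ∈ g.supp, B j = 1) :
    prodOp B * g.op = g.op * prodOp B := by
  obtain ⟨c₀, c₁, A, hA, hop⟩ := gate_form g hg
  have hc : prodOp B * prodOp A = prodOp A * prodOp B := by
    apply prodOp_commute
    intro j
    by_cases hj : j ∈ g.supp
    · rw [hB j hj]; exact Commute.one_left _
    · rw [hA j hj]; exact Commute.one_right _
  rw [hop, Matrix.add_mul, Matrix.mul_add, Matrix.smul_mul, Matrix.smul_mul, Matrix.mul_smul,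
    Matrix.mul_smul, Matrix.one_mul, Matrix.mul_one, hc]

/-- a product operator that is trivial on `g.supp` commutes with the adjoint of `g.op` -/
theorem prodOp_gate_adj_comm (g : Gate ι) (hg : g.Valid) (B : ι → M2)
    (hB : ∀ j ∈ g.supp, B j = 1) : prodOp B * g.opᴴ = g.opᴴ * prodOp B := by
  obtain ⟨c₀, c₁, A, hA, hop⟩ := gate_form g hg
  have hc : prodOp B * prodOp (fun i => (A i)ᴴ) = prodOp (fun i => (A i)ᴴ) * prodOp B := by
    apply prodOp_commute
    intro j
    by_cases hj : j ∈ g.supp
    · rw [hB j hj]; exact Commute.one_left _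
    · show Commute (B j) ((A j)ᴴ)
      rw [hA j hj, Matrix.conjTranspose_one]; exact Commute.one_right _
  rw [hop, Matrix.conjTranspose_add, Matrix.conjTranspose_smul, Matrix.conjTranspose_smul,
    Matrix.conjTranspose_one, prodOp_conjTranspose, Matrix.add_mul, Matrix.mul_add,
    Matrix.smul_mul, Matrix.smul_mul, Matrix.mul_smul, Matrix.mul_smul, Matrix.one_mul,
    Matrix.mul_one, hc]

/-- a product operator that is trivial on `g.supp ∪ T` commutes with `g.op` and `g.opᴴ` (`gate_form`,
`prodOp_commute`, `prodOp_conjTranspose`) and with `X` -/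
theorem LivesOn.gate_conj {T : Finset ι} {X : Op ι} (h : LivesOn T X) (g : Gate ι) (hg : g.Valid) :
    LivesOn (g.supp ∪ T) (g.opᴴ * X * g.op) := by
  intro B hB
  have hBg : ∀ j ∈ g.supp, B j = 1 := fun j hj => hB j (Finset.mem_union_left _ hj)
  have hBT : ∀ j ∈ T, B j = 1 := fun j hj => hB j (Finset.mem_union_right _ hj)
  have h1 := prodOp_gate_comm g hg B hBg
  have h2 := prodOp_gate_adj_comm g hg B hBg
  have h3 : prodOp B * X = X * prodOp B := h B hBT
  calc prodOp B * (g.opᴴ * X * g.op)
      = (prodOp B * g.opᴴ) * X * g.op := by simp only [Matrix.mul_assoc]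
    _ = g.opᴴ * (prodOp B * X) * g.op := by rw [h2]; simp only [Matrix.mul_assoc]
    _ = g.opᴴ * X * (prodOp B * g.op) := by rw [h3]; simp only [Matrix.mul_assoc]
    _ = g.opᴴ * X * g.op * prodOp B := by rw [h1]; simp only [Matrix.mul_assoc]

end Vale.Agent.Lib.P368
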