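import Vale.Agent.Lib.P368.DL.CircuitPrune

/-! # The output probabilities of the pruned circuit -/

namespace Vale.Agent.Lib.P368

open Matrix

set_option linter.unusedSectionVars false

variable {ι : Type} [Fintype ι] [DecidableEq ι]

/-- `heis_diag` on both sides (`Complex.ofReal_injective`), `circuitOp_append`, `circuit_prune` with
`X = prodOp (atSite o _)`, `livesOn_prodOp`, `atSite_ne` -/
theorem outProb_prune (C₁ C₂ : List (List (Gate ι))) (hC₂ : circuitValid C₂) (o : ι)
    (y : ι → Bool) (b : Bool) :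
    outProb (circuitOp (C₁ ++ C₂)) o y b = outProb (circuitOp (C₁ ++ pruneCircuit C₂ {o})) o y b := by
  apply Complex.ofReal_injective
  rw [← heis_diag, ← heis_diag, circuitOp_append, circuitOp_append, Matrix.conjTranspose_mul,
    Matrix.conjTranspose_mul]
  have hX : LivesOn {o} (prodOp (atSite o (ketbra (eb b) (eb b)))) :=
    livesOn_prodOp {o} _ (fun j hj => atSite_ne o _ (by simpa using hj))
  have h := (circuit_prune C₂ hC₂ {o} _ hX).1
  have e : ∀ U₁ U₂ X : Op ι, (U₁ᴴ * U₂ᴴ) * X * (U₂ * U₁) = U₁ᴴ * (U₂ᴴ * X * U₂) * U₁ := by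
    intro U₁ U₂ X
    simp only [Matrix.mul_assoc]
  rw [e, e, h]

theorem corr_prune {n a : ℕ} (C₁ C₂ : List (List (Gate (Fin n ⊕ Fin a)))) (hC₂ : circuitValid C₂)
    (o : Fin n ⊕ Fin a) :
    parityCorrelation (C₁ ++ C₂) o = parityCorrelation (C₁ ++ pruneCircuit C₂ {o}) o := by
  unfold parityCorrelation
  simp only [outProb_prune C₁ C₂ hC₂ o]

end Vale.Agent.Lib.P368
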